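import Vale.Agent.P271.H837.KST

/-!
# P271 / H837 : approximate exponent vectors of a minimiser, inside the exponent set

Same setting as `kstar_of_min`. For every `ε > 0` there is `k ≥ 0`, supported on the members of
the adapted basis of positive weight, with the product in `P`, `k·w(b) ≥ r * S κ F - ε` and
`∑ k ≤ r * ∑ κ + ε`.
-/

namespace Vale.Agent.P271.H837

open Finsupp Module Vale.Agent.P271.Filt Vale.Agent.P271.Filt.Wt Vale.Agent.P271.Exp
  Vale.Agent.P271.H43

variable {K V R : Type*} [Field K] [AddCommGroup V] [Module K V] [CommRing R] [Algebra K R]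
  {Hm : R → Prop} {P : Set (R →₀ ℝ)} {j : V →ₗ[K] R}

/-- Lowering coefficients on a basis stays in the exponent set. -/
theorem sum_single_mem_of_le (hP : IsExp Hm P) (hj : Function.Injective j)
    (hV : ∀ v, Hm (j v)) {ι : Type*} [Fintype ι]
    (b : Basis ι K V) {q q' : ι → ℝ} (h : ∀ i, q' i ≤ q i)
    (hq : ∑ i, single (j (b i)) (q i) ∈ P) : ∑ i, single (j (b i)) (q' i) ∈ P := by
  classical
  refine hP.down _ hq _ (fun g hg => ?_) ?_
  · have h1 := Finsupp.support_finsetSum hg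
    rw [Finset.mem_biUnion] at h1
    obtain ⟨i, -, hi⟩ := h1
    have h2 : g = j (b i) := by
      have := Finsupp.support_single_subset hi
      rwa [Finset.mem_singleton] at this
    rw [h2]
    exact ⟨hV _, j_ne_zero hj (b.ne_zero i)⟩
  · refine Finset.sum_le_sum fun i _ => ?_
    intro f
    rw [single_apply, single_apply]
    split_ifs
    · exact h i
    · exact le_rfl

theorem approx_of_min [FiniteDimensional K V] (hP : IsExp Hm P) (hj : Function.Injective j)
    (hK : ∀ c : K, Hm (algebraMap K R c)) (hV : ∀ v, Hm (j v))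
    {κ : Fin (finrank K V) → ℝ} (hκm : Monotone κ) (hκ0 : ∀ i, 0 ≤ κ i) {r : ℝ} (hr : 0 ≤ r)
    (hmin : ∀ G : Wt K V, (∀ x, x ≠ 0 → 0 ≤ G.w x) → ∀ c, VSl P j G.w c → r * S κ G ≤ c)
    {F : Wt K V} (hF : ∀ x, x ≠ 0 → 0 ≤ F.w x) (hFc : VSl P j F.w (r * S κ F))
    {b : Basis (Fin (finrank K V)) K V} (hb : F.Adapted b) (hanti : Antitone fun i => F.w (b i))
    {ε : ℝ} (hε : 0 < ε) :
    ∃ k : Fin (finrank K V) → ℝ, (∀ i, 0 ≤ k i) ∧ (∀ i, F.w (b i) = 0 → k i = 0) ∧
      ∑ i, single (j (b i)) (k i) ∈ P ∧ r * S κ F - ε ≤ ∑ i, k i * F.w (b i) ∧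
      ∑ i, k i * F.w (b i) ≤ r * S κ F ∧ ∑ i, k i ≤ r * ∑ i, κ i + ε := by
  classical
  have hFb : ∀ i, 0 ≤ F.w (b i) := fun i => hF _ (b.ne_zero i)
  have hK0 : 0 ≤ r * ∑ i, κ i := mul_nonneg hr (Finset.sum_nonneg fun i _ => hκ0 i)
  obtain ⟨t₀, ht₀, hlt⟩ : ∃ t₀ : ℝ, 0 < t₀ ∧ ∀ i, 0 < F.w (b i) → t₀ ≤ F.w (b i) := by
    rcases isEmpty_or_nonempty {i // 0 < F.w (b i)} with hι | hι
    · exact ⟨1, one_pos, fun i hi => (hι.false ⟨i, hi⟩).elim⟩
    · obtain ⟨i0, hi0⟩ := Finite.exists_min (fun i : {i // 0 < F.w (b i)} => F.w (b i))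
      exact ⟨F.w (b i0), i0.2, fun i hi => hi0 ⟨i, hi⟩⟩
  -- the step
  obtain ⟨t, ht, htt, hts⟩ : ∃ t : ℝ, 0 < t ∧ t ≤ t₀ ∧ t * (r * ∑ i, κ i + ε) ≤ ε := by
    refine ⟨min t₀ (ε / (r * ∑ i, κ i + ε)), lt_min ht₀ (by positivity), min_le_left _ _, ?_⟩
    calc min t₀ (ε / (r * ∑ i, κ i + ε)) * (r * ∑ i, κ i + ε)
        ≤ ε / (r * ∑ i, κ i + ε) * (r * ∑ i, κ i + ε) :=
          mul_le_mul_of_nonneg_right (min_le_right _ _) (by linarith)
      _ = ε := div_mul_cancel₀ _ (by linarith)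
  let e : Fin (finrank K V) → ℝ := fun i => if 0 < F.w (b i) then F.w (b i) - t else 0
  have he0 : ∀ i, 0 ≤ e i := by
    intro i
    simp only [e]
    split_ifs with h
    · linarith [hlt i h]
    · exact le_rfl
  have hanti' : Antitone e := by
    intro i i' hii'
    have h1 := hanti hii'
    simp only at h1
    simp only [e]
    split_ifs with h2 h3 h3
    · linarith
    · exact absurd (h2.trans_le h1) h3
    · linarith [hlt i h3]
    · exact le_rfl
  have hSb : S κ F = ∑ i, κ i * F.w (b i) := S_eq_sum hκm hb hanti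
  have hSe : r * S κ F - t * (r * ∑ i, κ i) ≤ r * S κ (ofBasis b e) := by
    rw [S_ofBasis hκm b hanti', hSb]
    have h2 : ∑ i, κ i * F.w (b i) - t * ∑ i, κ i ≤ ∑ i, κ i * e i := by
      rw [Finset.mul_sum, ← Finset.sum_sub_distrib]
      refine Finset.sum_le_sum fun i _ => ?_
      simp only [e]
      split_ifs with h3
      · linarith
      · have h4 : F.w (b i) = 0 := le_antisymm (not_lt.mp h3) (hFb i)
        rw [h4]
        have := mul_nonneg ht.le (hκ0 i)
        linarith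
    calc r * ∑ i, κ i * F.w (b i) - t * (r * ∑ i, κ i)
        = r * (∑ i, κ i * F.w (b i) - t * ∑ i, κ i) := by ring
      _ ≤ _ := mul_le_mul_of_nonneg_left h2 hr
  have hnot : ¬ VSl P j (ofBasis b e).w (r * S κ (ofBasis b e) - t * ε) := by
    intro h
    have h1 := hmin (ofBasis b e) (fun v hv => ofBasis_nonneg b he0 hv) _ h
    have : 0 < t * ε := mul_pos ht hε
    linarith
  obtain ⟨q, hq0, hqP, hq⟩ : ∃ q : Fin (finrank K V) → ℝ, (∀ i, 0 ≤ q i) ∧
      ∑ i, single (j (b i)) (q i) ∈ P ∧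
      r * S κ (ofBasis b e) - t * ε < ∑ i, q i * (ofBasis b e).w (b i) := by
    by_contra hcon
    push Not at hcon
    exact hnot (vsl_of_basis hP hj hK hV (F := ofBasis b e) (fun v hv => ofBasis_nonneg b he0 hv)
      (ofBasis_adapted b e) fun q hq0 hqP => hcon q hq0 hqP)
  let k : Fin (finrank K V) → ℝ := fun i => if 0 < F.w (b i) then q i else 0
  have hk0 : ∀ i, 0 ≤ k i := by
    intro i
    simp only [k]
    split_ifs
    · exact hq0 i
    · exact le_rfl
  have hkP : ∑ i, single (j (b i)) (k i) ∈ P := by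
    refine sum_single_mem_of_le hP hj hV b (fun i => ?_) hqP
    simp only [k]
    split_ifs
    · exact le_rfl
    · exact hq0 i
  have hup : ∑ i, k i * F.w (b i) ≤ r * S κ F := hFc.basis b hk0 hkP
  have hlow : r * S κ F - t * (r * ∑ i, κ i) - t * ε
      < ∑ i, k i * F.w (b i) - t * ∑ i, k i := by
    have h1 : ∑ i, q i * (ofBasis b e).w (b i) = ∑ i, k i * F.w (b i) - t * ∑ i, k i := by
      rw [Finset.mul_sum, ← Finset.sum_sub_distrib]
      refine Finset.sum_congr rfl fun i _ => ?_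
      rw [ofBasis_basis]
      simp only [e, k]
      split_ifs <;> ring
    rw [← h1]
    linarith
  have hsum : 0 ≤ ∑ i, k i := Finset.sum_nonneg fun i _ => hk0 i
  refine ⟨k, hk0, fun i hi => ?_, hkP, ?_, hup, ?_⟩
  · simp only [k, hi, lt_self_iff_false, if_false]
  · have h1 : 0 ≤ t * ∑ i, k i := mul_nonneg ht.le hsum
    have h2 : t * (r * ∑ i, κ i) + t * ε ≤ ε := by linarith
    linarith
  · have h1 : t * ∑ i, k i < t * (r * ∑ i, κ i + ε) := by
      have : t * (r * ∑ i, κ i + ε) = t * (r * ∑ i, κ i) + t * ε := by ring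
      linarith
    exact (lt_of_mul_lt_mul_left h1 ht.le).le

end Vale.Agent.P271.H837
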