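import Vale.Agent.P271.Dual.Dual

/-!
# P271: step (4) of the chain-free proof (exact exponent vector of small total mass)

`exists_kstar`: let `f` be sublinear and monotone on the orthant `ℝ^ι_{≥0}`, let `l > 0` and
suppose that `f (l - t 1) ≥ f l - t C` for all small `t ≥ 0`. Then there is `k ≥ 0` with
`k·x ≤ f x` for all `x ≥ 0`, `k·l = f l` and `∑ k ≤ C`.
-/

namespace Vale.Agent.P271.H837

open Finset Vale.Agent.P271.Dual

variable {ι : Type*} [Fintype ι]

theorem exists_kstar (f : (ι → ℝ) → ℝ)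
    (hom : ∀ x, (∀ i, 0 ≤ x i) → ∀ t : ℝ, 0 ≤ t → f (t • x) = t * f x)
    (sub : ∀ x y, (∀ i, 0 ≤ x i) → (∀ i, 0 ≤ y i) → f (x + y) ≤ f x + f y)
    (mono : ∀ x y, (∀ i, 0 ≤ x i) → (∀ i, x i ≤ y i) → f x ≤ f y)
    (l : ι → ℝ) (C : ℝ) (hC : 0 ≤ C) (t₀ : ℝ) (ht₀ : 0 < t₀) (hlt : ∀ i, t₀ ≤ l i)
    (H : ∀ t, 0 ≤ t → t ≤ t₀ → f l - t * C ≤ f (fun i => l i - t)) :
    ∃ k : ι → ℝ, (∀ i, 0 ≤ k i) ∧ (∀ x, (∀ i, 0 ≤ x i) → ∑ i, k i * x i ≤ f x) ∧
      ∑ i, k i * l i = f l ∧ ∑ i, k i ≤ C := by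
  have hl : ∀ i, 0 ≤ l i := fun i => ht₀.le.trans (hlt i)
  have f0 : f 0 = 0 := by
    have := hom 0 (fun _ => le_rfl) 0 le_rfl
    simpa using this
  have hnn : ∀ x, (∀ i, 0 ≤ x i) → 0 ≤ f x := fun x hx => by
    rw [← f0]; exact mono 0 x (fun _ => le_rfl) hx
  obtain ⟨k, hk, hkx, hkl, hkC⟩ := exists_exact f hom sub mono l 0 hl (fun _ => le_rfl) C hC (by
    intro x hx t ht B hB hB0
    simp only [Pi.zero_apply, zero_mul, Finset.sum_const_zero, zero_sub]
    rcases ht.eq_or_lt with rfl | ht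
    · have h1 := hnn x hx
      have h2 : 0 ≤ C * B := mul_nonneg hC hB0
      linarith
    · -- a small step
      obtain ⟨η, hη0, hη1, hη⟩ : ∃ η : ℝ, 0 < η ∧ η ≤ 1 ∧ η * B / t ≤ t₀ := by
        refine ⟨min 1 (t₀ * t / (B + 1)), lt_min one_pos (by positivity), min_le_left _ _, ?_⟩
        rw [div_le_iff₀ ht]
        have h1 : min 1 (t₀ * t / (B + 1)) * B ≤ t₀ * t / (B + 1) * B :=
          mul_le_mul_of_nonneg_right (min_le_right _ _) hB0
        refine h1.trans ?_
        rw [div_mul_eq_mul_div, div_le_iff₀ (by linarith)]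
        have : 0 ≤ t₀ * t := by positivity
        nlinarith
      have hs0 : 0 ≤ η * B / t := by positivity
      have h1 := H _ hs0 hη
      have h2 : f (t • fun i => l i - η * B / t) = t * f (fun i => l i - η * B / t) :=
        hom _ (fun i => by have := hlt i; linarith) t ht.le
      have h3 : f (t • fun i => l i - η * B / t) ≤ f (((1 - η) * t) • l + η • x) := by
        refine mono _ _ (fun i => ?_) (fun i => ?_)
        · simp only [Pi.smul_apply, smul_eq_mul]
          have := hlt i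
          exact mul_nonneg ht.le (by linarith)
        · simp only [Pi.smul_apply, smul_eq_mul, Pi.add_apply]
          have h4 := (abs_le.mp (hB i)).1
          have h5 : t * (l i - η * B / t) = t * l i - η * B := by
            field_simp
          rw [h5]
          nlinarith
      have h4 : f (((1 - η) * t) • l + η • x) ≤ (1 - η) * t * f l + η * f x := by
        have h5 : (0 : ℝ) ≤ (1 - η) * t := mul_nonneg (by linarith) ht.le
        refine (sub _ _ (fun i => ?_) (fun i => ?_)).trans_eq ?_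
        · exact mul_nonneg h5 (hl i)
        · exact mul_nonneg hη0.le (hx i)
        · rw [hom l hl _ h5, hom x hx _ hη0.le]
      have h6 : t * (f l - η * B / t * C) ≤ (1 - η) * t * f l + η * f x :=
        (mul_le_mul_of_nonneg_left h1 ht.le).trans (by rw [← h2]; exact h3.trans h4)
      have h7 : t * (f l - η * B / t * C) = t * f l - η * B * C := by
        field_simp
      rw [h7] at h6
      have h8 : η * (t * f l - B * C) ≤ η * f x := by nlinarith
      have h9 := le_of_mul_le_mul_left h8 hη0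
      linarith)
  refine ⟨k, hk, hkx, hkl, ?_⟩
  refine le_trans (Finset.sum_le_sum fun i _ => ?_) hkC
  simpa using le_abs_self (k i)

end Vale.Agent.P271.H837
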