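import Vale.Agent.P271.H837.HB
import Vale.Agent.P271.H604.OnWt
import Vale.Agent.P271.H43.Sorted

/-!
# P271 / H837 : the exponent vector `k*` of a minimiser (step (4) of the chain-free proof)

`F` is a minimiser of `slope / S κ` on the nonnegative filtrations of `V`, with slope
`r * S κ F`, and `b` is an adapted basis with decreasing weights. Then there is `k ≥ 0`,
supported on the basis vectors of positive weight, with `k·w(b) = r * S κ F`,
`k·l ≤ slope (ofBasis b l)` for every `l ≥ 0`, and `∑ k ≤ r * ∑ κ`.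
-/

namespace Vale.Agent.P271.H837

open Finsupp Module Vale.Agent.P271.Filt Vale.Agent.P271.Filt.Wt Vale.Agent.P271.Exp
  Vale.Agent.P271.H43

section general

variable {K V R : Type*} [Field K] [AddCommGroup V] [Module K V] [CommRing R] [Algebra K R]

theorem ofBasis_nonneg {ι : Type*} (b : Basis ι K V) {l : ι → ℝ} (hl : ∀ i, 0 ≤ l i) {x : V}
    (hx : x ≠ 0) : 0 ≤ (ofBasis b l).w x := by
  obtain ⟨i, -, heq⟩ := (ofBasis_adapted b l).exists_eq hx
  rw [heq, ofBasis_basis]; exact hl i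

theorem ofBasis_mono {ι : Type*} (b : Basis ι K V) {l l' : ι → ℝ} (h : ∀ i, l i ≤ l' i) {x : V}
    (hx : x ≠ 0) : (ofBasis b l).w x ≤ (ofBasis b l').w x := by
  obtain ⟨i, hi, heq⟩ := (ofBasis_adapted b l').exists_eq hx
  rw [heq, ofBasis_basis]
  refine ((ofBasis_adapted b l) x i hi).trans ?_
  rw [ofBasis_basis]; exact h i

theorem ofBasis_le_of_adapted {F : Wt K V} {ι : Type*} {b : Basis ι K V} (hb : F.Adapted b)
    {l : ι → ℝ} {M : ℝ} (h : ∀ i, l i ≤ M * F.w (b i)) {x : V} (hx : x ≠ 0) :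
    (ofBasis b l).w x ≤ M * F.w x := by
  obtain ⟨i, hi, heq⟩ := hb.exists_eq hx
  rw [heq]
  refine ((ofBasis_adapted b l) x i hi).trans ?_
  rw [ofBasis_basis]; exact h i

variable {Hm : R → Prop} {P : Set (R →₀ ℝ)} {j : V →ₗ[K] R}

theorem vslope_nonneg (h0 : (0 : R →₀ ℝ) ∈ P) {w : V → ℝ} {c : ℝ} (h : VSl P j w c) :
    0 ≤ vslope P j w := h.vslope.nonneg h0

theorem vslope_mono (hP : IsExp Hm P) (hj : Function.Injective j) {w w' : V → ℝ} {c : ℝ}
    (h : VSl P j w' c) (hw : ∀ v, v ≠ 0 → w v ≤ w' v) : vslope P j w ≤ vslope P j w' :=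
  ((h.vslope).mono hP hj hw).vslope_le hP.zero_mem

theorem vslope_congr (hP : IsExp Hm P) (hj : Function.Injective j) {w w' : V → ℝ} {c : ℝ}
    (h : VSl P j w' c) (hw : ∀ v, v ≠ 0 → w v = w' v) : vslope P j w = vslope P j w' :=
  le_antisymm (vslope_mono hP hj h fun v hv => (hw v hv).le)
    (vslope_mono hP hj (h.mono hP hj fun v hv => (hw v hv).le) fun v hv => (hw v hv).ge)

theorem vslope_smul (hP : IsExp Hm P) (hj : Function.Injective j) {w w' : V → ℝ} {c t : ℝ}
    (ht : 0 ≤ t) (h : VSl P j w c) (hw : ∀ v, v ≠ 0 → w' v = t * w v) :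
    vslope P j w' = t * vslope P j w := by
  rcases ht.eq_or_lt with rfl | ht
  · rw [zero_mul]
    have h1 : VSl P j w' 0 := by
      have := (h.smul le_rfl : VSl P j (fun v => 0 * w v) (0 * c))
      rw [zero_mul] at this
      exact this.mono hP hj fun v hv => (hw v hv).le
    exact le_antisymm (h1.vslope_le hP.zero_mem) (vslope_nonneg hP.zero_mem h1)
  · have h1 : VSl P j w' (t * vslope P j w) :=
      (h.vslope.smul ht.le).mono hP hj fun v hv => (hw v hv).le
    refine le_antisymm (h1.vslope_le hP.zero_mem) ?_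
    have h2 : VSl P j w (t⁻¹ * vslope P j w') :=
      (h1.vslope.smul (inv_nonneg.mpr ht.le)).mono hP hj fun v hv => by
        rw [hw v hv, inv_mul_cancel_left₀ ht.ne']
    have h3 := h2.vslope_le hP.zero_mem
    calc t * vslope P j w ≤ t * (t⁻¹ * vslope P j w') := mul_le_mul_of_nonneg_left h3 ht.le
      _ = vslope P j w' := by rw [mul_inv_cancel_left₀ ht.ne']

end general

variable {K V R : Type*} [Field K] [AddCommGroup V] [Module K V] [CommRing R] [Algebra K R]
  [FiniteDimensional K V] {Hm : R → Prop} {P : Set (R →₀ ℝ)} {j : V →ₗ[K] R}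

theorem kstar_of_min (hP : IsExp Hm P) (hj : Function.Injective j)
    (hK : ∀ c : K, Hm (algebraMap K R c)) (hV : ∀ v, Hm (j v))
    {κ : Fin (finrank K V) → ℝ} (hκm : Monotone κ) (hκ0 : ∀ i, 0 ≤ κ i) {r : ℝ} (hr : 0 ≤ r)
    (hmin : ∀ G : Wt K V, (∀ x, x ≠ 0 → 0 ≤ G.w x) → ∀ c, VSl P j G.w c → r * S κ G ≤ c)
    {F : Wt K V} (hF : ∀ x, x ≠ 0 → 0 ≤ F.w x) (hFc : VSl P j F.w (r * S κ F))
    {b : Basis (Fin (finrank K V)) K V} (hb : F.Adapted b) (hanti : Antitone fun i => F.w (b i)) :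
    ∃ k : Fin (finrank K V) → ℝ, (∀ i, 0 ≤ k i) ∧ (∀ i, F.w (b i) = 0 → k i = 0) ∧
      ∑ i, k i * F.w (b i) = r * S κ F ∧
      (∀ l : Fin (finrank K V) → ℝ, (∀ i, 0 ≤ l i) → ∀ c, VSl P j (ofBasis b l).w c →
        ∑ i, k i * l i ≤ c) ∧
      ∑ i, k i ≤ r * ∑ i, κ i := by
  classical
  let ι := {i : Fin (finrank K V) // 0 < F.w (b i)}
  let ext : (ι → ℝ) → (Fin (finrank K V) → ℝ) := fun x i =>
    if h : 0 < F.w (b i) then x ⟨i, h⟩ else 0
  have ext_nonneg : ∀ x : ι → ℝ, (∀ i, 0 ≤ x i) → ∀ i, 0 ≤ ext x i := by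
    intro x hx i
    simp only [ext]
    split_ifs with h
    · exact hx _
    · exact le_rfl
  have hFb : ∀ i, 0 ≤ F.w (b i) := fun i => hF _ (b.ne_zero i)
  -- finiteness
  have hfin : ∀ x : ι → ℝ, ∃ c, VSl P j (ofBasis b (ext x)).w c := by
    intro x
    obtain ⟨M, hM0, hM⟩ : ∃ M : ℝ, 0 ≤ M ∧ ∀ i, ext x i ≤ M * F.w (b i) := by
      refine ⟨∑ i : ι, |x i| / F.w (b i), Finset.sum_nonneg fun i _ =>
        div_nonneg (abs_nonneg _) (hFb _), fun i => ?_⟩
      simp only [ext]
      split_ifs with h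
      · have h1 : |x ⟨i, h⟩| / F.w (b i) ≤ ∑ i : ι, |x i| / F.w (b i) :=
          Finset.single_le_sum (f := fun i : ι => |x i| / F.w (b i))
            (fun i _ => div_nonneg (abs_nonneg _) (hFb _)) (Finset.mem_univ (⟨i, h⟩ : ι))
        calc x ⟨i, h⟩ ≤ |x ⟨i, h⟩| := le_abs_self _
          _ = |x ⟨i, h⟩| / F.w (b i) * F.w (b i) := by rw [div_mul_cancel₀ _ h.ne']
          _ ≤ _ := mul_le_mul_of_nonneg_right h1 h.le
      · exact mul_nonneg (Finset.sum_nonneg fun i _ => div_nonneg (abs_nonneg _) (hFb _)) (hFb i)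
    exact ⟨_, (hFc.smul hM0).mono hP hj fun v hv => ofBasis_le_of_adapted hb hM hv⟩
  let f : (ι → ℝ) → ℝ := fun x => vslope P j (ofBasis b (ext x)).w
  have hom : ∀ x : ι → ℝ, (∀ i, 0 ≤ x i) → ∀ t : ℝ, 0 ≤ t → f (t • x) = t * f x := by
    intro x hx t ht
    obtain ⟨c, hc⟩ := hfin x
    refine vslope_smul hP hj ht hc fun v hv => ?_
    have h1 : ext (t • x) = fun i => t * ext x i := by
      funext i
      simp only [ext, Pi.smul_apply, smul_eq_mul]
      split_ifs <;> simp
    rw [h1]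
    rcases ht.eq_or_lt with rfl | ht
    · obtain ⟨i, -, heq⟩ := (ofBasis_adapted b fun i => 0 * ext x i).exists_eq hv
      rw [heq, ofBasis_basis, zero_mul, zero_mul]
    · apply le_antisymm
      · exact ofBasis_le_of_adapted (ofBasis_adapted b (ext x))
          (fun i => by rw [ofBasis_basis]) hv
      · obtain ⟨i, hi, heq⟩ := (ofBasis_adapted b fun i => t * ext x i).exists_eq hv
        rw [heq, ofBasis_basis]
        refine mul_le_mul_of_nonneg_left ?_ ht.le
        have := (ofBasis_adapted b (ext x)) v i hi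
        rwa [ofBasis_basis] at this
  have sub : ∀ x y : ι → ℝ, (∀ i, 0 ≤ x i) → (∀ i, 0 ≤ y i) → f (x + y) ≤ f x + f y := by
    intro x y hx hy
    obtain ⟨c, hc⟩ := hfin x
    obtain ⟨c', hc'⟩ := hfin y
    refine VSl.vslope_le hP.zero_mem ?_
    refine vsl_of_basis hP hj hK hV (F := ofBasis b (ext (x + y)))
      (fun v hv => ofBasis_nonneg b (ext_nonneg _ fun i => add_nonneg (hx i) (hy i)) hv)
      (ofBasis_adapted b _) ?_
    intro q hq hm
    have h1 := hc.vslope.basis b hq hm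
    have h2 := hc'.vslope.basis b hq hm
    have h3 : ∑ i, q i * (ofBasis b (ext (x + y))).w (b i) =
        ∑ i, q i * (ofBasis b (ext x)).w (b i) + ∑ i, q i * (ofBasis b (ext y)).w (b i) := by
      rw [← Finset.sum_add_distrib]
      refine Finset.sum_congr rfl fun i _ => ?_
      simp only [ofBasis_basis, ext, Pi.add_apply]
      split_ifs <;> ring
    rw [h3]
    exact add_le_add h1 h2
  have mono : ∀ x y : ι → ℝ, (∀ i, 0 ≤ x i) → (∀ i, x i ≤ y i) → f x ≤ f y := by
    intro x y _ hxy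
    obtain ⟨c', hc'⟩ := hfin y
    refine vslope_mono hP hj hc' fun v hv => ofBasis_mono b (fun i => ?_) hv
    simp only [ext]
    split_ifs
    · exact hxy _
    · exact le_rfl
  -- the weights of `F`
  let l : ι → ℝ := fun i => F.w (b i)
  have hextl : ext l = fun i => F.w (b i) := by
    funext i
    simp only [ext, l]
    split_ifs with h
    · rfl
    · exact le_antisymm (hFb i) (not_lt.mp h)
  have hFw : ∀ v, v ≠ 0 → (ofBasis b (ext l)).w v = F.w v := fun v hv =>
    ((hb.w_eq_ofBasis (lam := ext l) (fun i => by rw [hextl]) hv)).symm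
  have hfl : f l = r * S κ F := by
    have h1 : VSl P j (ofBasis b (ext l)).w (r * S κ F) :=
      hFc.mono hP hj fun v hv => (hFw v hv).le
    refine le_antisymm (h1.vslope_le hP.zero_mem) ?_
    have h2 := hmin F hF _ (h1.vslope.mono hP hj fun v hv => (hFw v hv).ge)
    exact h2
  obtain ⟨t₀, ht₀, hlt⟩ : ∃ t₀ : ℝ, 0 < t₀ ∧ ∀ i : ι, t₀ ≤ l i := by
    rcases isEmpty_or_nonempty ι with hι | hι
    · exact ⟨1, one_pos, fun i => (hι.false i).elim⟩
    · obtain ⟨i0, hi0⟩ := Finite.exists_min l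
      exact ⟨l i0, i0.2, hi0⟩
  have hSb : S κ F = ∑ i, κ i * F.w (b i) := S_eq_sum hκm hb hanti
  have H : ∀ t, 0 ≤ t → t ≤ t₀ → f l - t * (r * ∑ i, κ i) ≤ f (fun i => l i - t) := by
    intro t ht htt
    have he : ∀ i, ext (fun i => l i - t) i = if 0 < F.w (b i) then F.w (b i) - t else 0 := by
      intro i
      simp only [ext, l]
      split_ifs <;> rfl
    have hpos : ∀ i, 0 < F.w (b i) → t ≤ F.w (b i) := fun i hi => htt.trans (hlt ⟨i, hi⟩)
    have hanti' : Antitone (ext fun i => l i - t) := by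
      intro i i' hii'
      have h1 := hanti hii'
      simp only at h1
      rw [he, he]
      split_ifs with h2 h3 h3
      · linarith
      · exact absurd (h2.trans_le h1) h3
      · linarith [hpos i h3]
      · exact le_rfl
    obtain ⟨c, hc⟩ := hfin (fun i => l i - t)
    have h1 := hmin (ofBasis b (ext fun i => l i - t))
      (fun v hv => ofBasis_nonneg b (fun i => by
        rw [he]
        split_ifs with h2
        · linarith [hpos i h2]
        · exact le_rfl) hv) _ hc.vslope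
    rw [S_ofBasis hκm b hanti'] at h1
    refine le_trans ?_ h1
    rw [hfl, hSb]
    have h2 : ∑ i, κ i * F.w (b i) - t * ∑ i, κ i ≤ ∑ i, κ i * ext (fun i => l i - t) i := by
      rw [Finset.mul_sum, ← Finset.sum_sub_distrib]
      refine Finset.sum_le_sum fun i _ => ?_
      rw [he]
      split_ifs with h3
      · linarith
      · have h4 : F.w (b i) = 0 := le_antisymm (not_lt.mp h3) (hFb i)
        rw [h4]
        have := mul_nonneg ht (hκ0 i)
        linarith
    calc r * ∑ i, κ i * F.w (b i) - t * (r * ∑ i, κ i)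
        = r * (∑ i, κ i * F.w (b i) - t * ∑ i, κ i) := by ring
      _ ≤ _ := mul_le_mul_of_nonneg_left h2 hr
  obtain ⟨k, hk0, hkf, hkl, hkC⟩ := exists_kstar f hom sub mono l (r * ∑ i, κ i)
    (mul_nonneg hr (Finset.sum_nonneg fun i _ => hκ0 i)) t₀ ht₀ hlt H
  -- sums over `ι` and over `Fin`
  have hsum : ∀ g : Fin (finrank K V) → ℝ,
      ∑ i, ext k i * g i = ∑ i : ι, k i * g i := by
    intro g
    have h1 : ∀ i ∈ Finset.univ, ¬ (0 < F.w (b i)) → ext k i * g i = 0 := by
      intro i _ hi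
      simp only [ext, dif_neg hi, zero_mul]
    rw [← Finset.sum_filter_of_ne (p := fun i => 0 < F.w (b i)) (fun i hi hne => by
      by_contra hcon
      exact hne (h1 i hi hcon))]
    rw [Finset.sum_subtype (p := fun i => 0 < F.w (b i)) (Finset.univ.filter fun i => 0 < F.w (b i))
      (fun i => by simp)]
    refine Finset.sum_congr rfl fun i _ => ?_
    simp only [ext, dif_pos i.2]
  refine ⟨ext k, ext_nonneg k hk0, fun i hi => ?_, ?_, ?_, ?_⟩
  · simp only [ext, hi, lt_self_iff_false, dite_false]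
  · rw [hsum, hkl, hfl]
  · intro l' hl' c hc
    rw [hsum]
    refine (hkf (fun i => l' i) fun i => hl' i).trans ?_
    refine VSl.vslope_le hP.zero_mem (hc.mono hP hj fun v hv => ofBasis_mono b (fun i => ?_) hv)
    simp only [ext]
    split_ifs
    · exact le_rfl
    · exact hl' i
  · have h1 := hsum (fun _ => 1)
    simp only [mul_one] at h1
    rw [h1]
    exact hkC

end Vale.Agent.P271.H837
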